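import Crest.Agent.N325.Lst.ListR
import Crest.Agent.N325.M0.Tac

-- ▼ part N325/Lst/SortR
section

/-!
# Row 325: radix sort in the monad `R` (helper12)
-/

set_option autoImplicit false

namespace Crest.Agent.N325

variable {α : Type} {g : Gl}

/-- one pass: stable partition by the binary digit of weight `s.1` -/
def radixPass (key : α → ℕ) (s : ℕ × List α) : R (ℕ × List α) :=
  nat (2 * s.1) >>= fun p =>
    filterP (fun x => decide (key x / s.1 % 2 = 0)) s.2 >>= fun l0 =>
      filterP (fun x => decide (key x / s.1 % 2 ≠ 0)) s.2 >>= fun l1 =>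
        appL l0 l1 >>= fun l => pure (p, l)

theorem radix_pairwise (key : α → ℕ) {p : ℕ} (hp : 0 < p) {l : List α}
    (h : l.Pairwise fun x y => key x % p ≤ key y % p) :
    (l.filter (fun x => decide (key x / p % 2 = 0)) ++
      l.filter (fun x => decide (key x / p % 2 ≠ 0))).Pairwise
        fun x y => key x % (2 * p) ≤ key y % (2 * p) := by
  have e : ∀ x, key x % (2 * p) = key x % p + p * (key x / p % 2) := fun x => by
    rw [mul_comm, Nat.mod_mul]
  rw [List.pairwise_append]
  refine ⟨(h.filter _).imp_of_mem fun {x y} hx hy k => ?_,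
    (h.filter _).imp_of_mem fun {x y} hx hy k => ?_, fun x hx y hy => ?_⟩
  · have a := of_decide_eq_true (List.mem_filter.1 hx).2
    have b := of_decide_eq_true (List.mem_filter.1 hy).2
    rw [e, e, a, b]; omega
  · have a := of_decide_eq_true (List.mem_filter.1 hx).2
    have b := of_decide_eq_true (List.mem_filter.1 hy).2
    rw [e, e, show key x / p % 2 = 1 by omega, show key y / p % 2 = 1 by omega]; omega
  · have a := of_decide_eq_true (List.mem_filter.1 hx).2
    have b := of_decide_eq_true (List.mem_filter.1 hy).2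
    have := Nat.mod_lt (key x) hp
    rw [e, e, a, show key y / p % 2 = 1 by omega]; omega

theorem radix_perm (key : α → ℕ) (p : ℕ) (l : List α) :
    (l.filter (fun x => decide (key x / p % 2 = 0)) ++
      l.filter (fun x => decide (key x / p % 2 ≠ 0))).Perm l := by
  have := List.filter_append_perm (fun x => decide (key x / p % 2 = 0)) l
  simpa only [ne_eq, decide_not] using this

theorem sp_radixPass (key : α → ℕ) (s : ℕ × List α) (hX : 2 * s.1 ≤ g.X) :
    Sp g (radixPass key s) fun r t =>
      r = (2 * s.1, s.2.filter (fun x => decide (key x / s.1 % 2 = 0)) ++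
        s.2.filter (fun x => decide (key x / s.1 % 2 ≠ 0))) ∧ t ≤ 6 * s.2.length + 6 := by
  refine sp_bind.2 (sp_nat.2 ⟨hX, (sp_filterP _ _).bind fun l0 t0 h0 =>
    (sp_filterP _ _).bind fun l1 t1 h1 => (sp_appL _ _).bind fun l t h => ⟨?_, ?_⟩⟩)
  · rw [h.1, h0.1, h1.1]
  · have := List.length_filter_le (fun x => decide (key x / s.1 % 2 = 0)) s.2
    rw [← h0.1] at this
    have := h0.2; have := h1.2; have := h.2
    omega

/-- sort by a key which is at most `M` -/
def sortL (key : α → ℕ) (M : ℕ) (l : List α) : R (List α) :=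
  whileF (fun s => decide (s.1 ≤ M)) (radixPass key) (M + 1) (1, l) >>= fun s => pure s.2

theorem sp_sortL (key : α → ℕ) {M : ℕ} {l : List α} (hM : ∀ x ∈ l, key x ≤ M)
    (hX : 2 * M ≤ g.X) :
    Sp g (sortL key M l) fun r t => r.Perm l ∧ r.Pairwise (fun x y => key x ≤ key y) ∧
      t ≤ M.size * (6 * l.length + 7) + 1 := by
  refine (sp_whileF (fun (s : ℕ × List α) t => ∃ j ≤ M.size, s.1 = 2 ^ j ∧ s.2.Perm l ∧
      s.2.Pairwise (fun x y => key x % s.1 ≤ key y % s.1) ∧ t ≤ j * (6 * l.length + 7))
    (fun s => M + 1 - s.1) (fun s t ⟨j, _, e, hp, hs, ht⟩ hc => ?_) (t := 0)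
    ⟨0, Nat.zero_le _, rfl, List.Perm.refl _, ?_, Nat.zero_le _⟩ (by simp)).bind
    fun s u ⟨hc, u', e, j, hj, e1, hp, hs, ht⟩ => ⟨hp, ?_, ?_⟩
  · have hc := of_decide_eq_true hc
    have hpos : 0 < s.1 := by rw [e]; positivity
    refine (sp_radixPass key s (by omega)).mono fun r u k => ?_
    rw [k.1]
    refine ⟨⟨j + 1, Nat.lt_size.2 (e ▸ hc), by rw [pow_succ, ← e, mul_comm],
      (radix_perm key _ _).trans hp, radix_pairwise key hpos hs, ?_⟩, by simp only; omega⟩
    have := k.2
    rw [hp.length_eq] at this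
    rw [add_mul]; omega
  · exact List.pairwise_of_forall fun x y => by simp [Nat.mod_one]
  · have hc : M < s.1 := by simpa using hc
    refine hs.imp_of_mem fun {x y} hx hy k => ?_
    rwa [Nat.mod_eq_of_lt ((hM x (hp.subset hx)).trans_lt hc),
      Nat.mod_eq_of_lt ((hM y (hp.subset hy)).trans_lt hc)] at k
  · have := Nat.mul_le_mul_right (6 * l.length + 7) hj
    omega

end Crest.Agent.N325
end

-- ▼ part N325/Lst/ListImpl

/-!
# Row 325: the list library is implementable (helper12)
-/

set_option autoImplicit false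

namespace Crest.Agent.N325

variable {α β γ δ : Type} [Rp α] [Rp β] [Rp γ] [Rp δ]

@[fun_prop] theorem Impl.foldP {f : α → β → γ → γ} {l : α → List β} {s : α → γ}
    (hf : Pu true fun p : α × β × γ => f p.1 p.2.1 p.2.2) (hl : Pu true l) (hs : Pu true s) :
    Impl fun a => N325.foldP (f a) (l a) (s a) := by
  unfold N325.foldP; impl

@[fun_prop] theorem Impl.forP {f : α → ℕ → γ → γ} {n i : α → ℕ} {s : α → γ}
    (hf : Pu true fun p : α × ℕ × γ => f p.1 p.2.1 p.2.2) (hn : Pu true n) (hi : Pu true i)
    (hs : Pu true s) : Impl fun a => N325.forP (f a) (n a) (i a) (s a) := by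
  unfold N325.forP; impl

@[fun_prop] theorem Impl.revAppL {l m : α → List β} (hl : Pu true l) (hm : Pu true m) :
    Impl fun a => N325.revAppL (l a) (m a) := by
  unfold N325.revAppL; impl

@[fun_prop] theorem Impl.revL {l : α → List β} (hl : Pu true l) :
    Impl fun a => N325.revL (l a) := by
  unfold N325.revL; impl

@[fun_prop] theorem Impl.appL {l m : α → List β} (hl : Pu true l) (hm : Pu true m) :
    Impl fun a => N325.appL (l a) (m a) := by
  unfold N325.appL; impl

@[fun_prop] theorem Impl.mapP {f : α → β → γ} {l : α → List β}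
    (hf : Pu true fun p : α × β => f p.1 p.2) (hl : Pu true l) :
    Impl fun a => N325.mapP (f a) (l a) := by
  unfold N325.mapP; impl

@[fun_prop] theorem Impl.filterP {f : α → β → Bool} {l : α → List β}
    (hf : Pu false fun p : α × β => f p.1 p.2) (hl : Pu true l) :
    Impl fun a => N325.filterP (f a) (l a) := by
  unfold N325.filterP; impl

@[fun_prop] theorem Impl.filterMapP {f : α → β → Option γ} {l : α → List β}
    (hf : Pu true fun p : α × β => f p.1 p.2) (hl : Pu true l) :
    Impl fun a => N325.filterMapP (f a) (l a) := by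
  unfold N325.filterMapP; impl

@[fun_prop] theorem Impl.lenL {l : α → List β} (hl : Pu true l) :
    Impl fun a => N325.lenL (l a) := by
  unfold N325.lenL; impl

@[fun_prop] theorem Impl.countPL {f : α → β → Bool} {l : α → List β}
    (hf : Pu false fun p : α × β => f p.1 p.2) (hl : Pu true l) :
    Impl fun a => N325.countPL (f a) (l a) := by
  unfold N325.countPL; impl

@[fun_prop] theorem Impl.anyP {f : α → β → Bool} {l : α → List β}
    (hf : Pu false fun p : α × β => f p.1 p.2) (hl : Pu true l) :
    Impl fun a => N325.anyP (f a) (l a) := by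
  unfold N325.anyP; impl

@[fun_prop] theorem Impl.sumL {f : α → β → ℕ} {l : α → List β}
    (hf : Pu false fun p : α × β => f p.1 p.2) (hl : Pu true l) :
    Impl fun a => N325.sumL (f a) (l a) := by
  unfold N325.sumL; impl

@[fun_prop] theorem Impl.rangeL {n i : α → ℕ} (hn : Pu true n) (hi : Pu true i) :
    Impl fun a => N325.rangeL (n a) (i a) := by
  unfold N325.rangeL; impl

@[fun_prop] theorem Impl.replL {n : α → ℕ} {x : α → β} {m : α → List β} (hn : Pu true n)
    (hx : Pu true x) (hm : Pu true m) : Impl fun a => N325.replL (n a) (x a) (m a) := by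
  unfold N325.replL; impl

@[fun_prop] theorem Pu.shiftHd {s : α → List β × List β} (hs : Pu true s) :
    Pu true fun a => N325.shiftHd (s a) := by
  unfold N325.shiftHd; impl

@[fun_prop] theorem Impl.splitL {n : α → ℕ} {l : α → List β} (hn : Pu true n) (hl : Pu true l) :
    Impl fun a => N325.splitL (n a) (l a) := by
  unfold N325.splitL; impl

@[fun_prop] theorem Impl.takeL {n : α → ℕ} {l : α → List β} (hn : Pu true n) (hl : Pu true l) :
    Impl fun a => N325.takeL (n a) (l a) := by
  unfold N325.takeL; impl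

@[fun_prop] theorem Impl.dropL {n : α → ℕ} {l : α → List β} (hn : Pu true n) (hl : Pu true l) :
    Impl fun a => N325.dropL (n a) (l a) := by
  unfold N325.dropL; impl

@[fun_prop] theorem Pu.zipHd {x : α → β} {s : α → List γ × List (β × γ)} (hx : Pu true x)
    (hs : Pu true s) : Pu true fun a => N325.zipHd (x a) (s a) := by
  unfold N325.zipHd; impl

@[fun_prop] theorem Impl.zipL {l : α → List β} {m : α → List γ} (hl : Pu true l)
    (hm : Pu true m) : Impl fun a => N325.zipL (l a) (m a) := by
  unfold N325.zipL; impl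

@[fun_prop] theorem Impl.mapL {f : α → β → R γ} {l : α → List β}
    (hf : Impl fun p : α × β => f p.1 p.2) (hl : Pu true l) :
    Impl fun a => N325.mapL (f a) (l a) := by
  unfold N325.mapL; impl

@[fun_prop] theorem Impl.flatMapP {f : α → β → List γ} {l : α → List β}
    (hf : Pu true fun p : α × β => f p.1 p.2) (hl : Pu true l) :
    Impl fun a => N325.flatMapP (f a) (l a) := by
  unfold N325.flatMapP; impl

@[fun_prop] theorem Impl.flatMapL {f : α → β → R (List γ)} {l : α → List β}
    (hf : Impl fun p : α × β => f p.1 p.2) (hl : Pu true l) :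
    Impl fun a => N325.flatMapL (f a) (l a) := by
  unfold N325.flatMapL; impl

@[fun_prop] theorem Impl.arrOfL {l : α → List β} {i : α → ℕ} {x : α → Arr β} (hl : Pu true l)
    (hi : Pu true i) (hx : Pu true x) : Impl fun a => N325.arrOfL (l a) (i a) (x a) := by
  unfold N325.arrOfL; impl

@[fun_prop] theorem Impl.tabP {f : α → ℕ → β} {n : α → ℕ} {x : α → Arr β}
    (hf : Pu true fun p : α × ℕ => f p.1 p.2) (hn : Pu true n) (hx : Pu true x) :
    Impl fun a => N325.tabP (f a) (n a) (x a) := by
  unfold N325.tabP; impl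

@[fun_prop] theorem Impl.setAllP {f : α → ℕ → β} {l : α → List ℕ} {x : α → Arr β}
    (hf : Pu true fun p : α × ℕ => f p.1 p.2) (hl : Pu true l) (hx : Pu true x) :
    Impl fun a => N325.setAllP (f a) (l a) (x a) := by
  unfold N325.setAllP; impl

@[fun_prop] theorem Impl.bucketP {f : α → β → ℕ} {l : α → List β} {x : α → Arr (List β)}
    (hf : Pu false fun p : α × β => f p.1 p.2) (hl : Pu true l) (hx : Pu true x) :
    Impl fun a => N325.bucketP (f a) (l a) (x a) := by
  unfold N325.bucketP; impl

@[fun_prop] theorem Impl.radixPass {f : α → β → ℕ} {s : α → ℕ × List β}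
    (hf : Pu false fun p : α × β => f p.1 p.2) (hs : Pu true s) :
    Impl fun a => N325.radixPass (f a) (s a) := by
  unfold N325.radixPass; impl

@[fun_prop] theorem Impl.sortL {f : α → β → ℕ} {M : α → ℕ} {l : α → List β}
    (hf : Pu false fun p : α × β => f p.1 p.2) (hM : Pu true M) (hl : Pu true l) :
    Impl fun a => N325.sortL (f a) (M a) (l a) := by
  unfold N325.sortL; impl

end Crest.Agent.N325
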